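import Crest.Agent.CompReal.CA
import Crest.Prelude.Def_BoxFlow

/-! A class of effective smooth scalar functions on space-time, closed under the algebraic
operations, partial derivatives and composition with the smooth step function. -/

set_option autoImplicit false

namespace Crest.Agent.BoxFlow

open Crest.AnalysisR.BoxFlow Crest.Agent.CompReal Set Polynomial
open scoped ContDiff Nat

/-- Space-time. -/
abbrev XT : Type := ℝ × (Fin 3 → ℝ)

/-- Rational space-time points. -/
abbrev PQ : Type := ℚ × (Fin 3 → ℚ)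

/-- The embedding of rational points. -/
def emb (p : PQ) : XT := ((p.1 : ℝ), ratPoint p.2)

/-- A partial derivative. -/
noncomputable def pd (d : Fin 4) (u : XT → ℝ) : XT → ℝ := fun p => fderiv ℝ u p (direction d)

/-- A mixed partial derivative. -/
noncomputable def md : List (Fin 4) → (XT → ℝ) → XT → ℝ
  | [], u => u
  | d :: ds, u => pd d (md ds u)

lemma norm_direction (d : Fin 4) : ‖direction d‖ ≤ 1 := by
  unfold direction
  split_ifs with h
  · simp
  · simp [Prod.norm_def, Pi.norm_single]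

lemma contDiff_pd {u : XT → ℝ} (hu : ContDiff ℝ ∞ u) (d : Fin 4) : ContDiff ℝ ∞ (pd d u) :=
  ((contDiff_infty_iff_fderiv.mp hu).2).clm_apply contDiff_const

lemma contDiff_md {u : XT → ℝ} (hu : ContDiff ℝ ∞ u) (ds : List (Fin 4)) :
    ContDiff ℝ ∞ (md ds u) := by
  induction ds with
  | nil => exact hu
  | cons d ds ih => exact contDiff_pd ih d

lemma diff {u : XT → ℝ} (hu : ContDiff ℝ ∞ u) : Differentiable ℝ u :=
  hu.differentiable (by simp)

/-- Local bounds for all derivatives. -/
def Bd (u : XT → ℝ) (B : ℕ → ℕ) : Prop :=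
  ∀ (m k : ℕ) (p : XT), k ≤ m → ‖p‖ ≤ m → ‖iteratedFDeriv ℝ k u p‖ ≤ B m

lemma norm_iter_pd {u : XT → ℝ} (hu : ContDiff ℝ ∞ u) (d : Fin 4) (k : ℕ) (p : XT) :
    ‖iteratedFDeriv ℝ k (pd d u) p‖ ≤ ‖iteratedFDeriv ℝ (k + 1) u p‖ := by
  have h := norm_iteratedFDeriv_clm_apply_const (f := fderiv ℝ u) (c := direction d) (x := p)
    (n := k) (contDiff_infty_iff_fderiv.mp hu).2.contDiffAt (by exact_mod_cast le_top)
  rw [norm_iteratedFDeriv_fderiv] at h
  exact h.trans (mul_le_of_le_one_left (norm_nonneg _) (norm_direction d))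

lemma norm_iter_md {u : XT → ℝ} (hu : ContDiff ℝ ∞ u) (ds : List (Fin 4)) (k : ℕ) (p : XT) :
    ‖iteratedFDeriv ℝ k (md ds u) p‖ ≤ ‖iteratedFDeriv ℝ (k + ds.length) u p‖ := by
  induction ds generalizing k with
  | nil => exact le_rfl
  | cons d ds ih =>
    refine (norm_iter_pd (contDiff_md hu ds) d k p).trans ((ih (k + 1)).trans (le_of_eq ?_))
    rw [List.length_cons, add_assoc, add_comm 1]

lemma abs_md_le {u : XT → ℝ} (hu : ContDiff ℝ ∞ u) (ds : List (Fin 4)) (p : XT) :
    |md ds u p| ≤ ‖iteratedFDeriv ℝ ds.length u p‖ := by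
  have := norm_iter_md hu ds 0 p
  rwa [norm_iteratedFDeriv_zero, zero_add] at this

/-! ### Finite differences -/

/-- A difference quotient. -/
noncomputable def dq (ε : ℝ) (d : Fin 4) (u : XT → ℝ) : XT → ℝ :=
  fun p => (u (p + ε • direction d) - u p) / ε

/-- Iterated difference quotients. -/
noncomputable def DD (ε : ℝ) : List (Fin 4) → (XT → ℝ) → XT → ℝ
  | [], u => u
  | d :: ds, u => DD ε ds (dq ε d u)

lemma contDiff_dq {u : XT → ℝ} (hu : ContDiff ℝ ∞ u) (ε : ℝ) (d : Fin 4) :
    ContDiff ℝ ∞ (dq ε d u) :=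
  ((hu.comp (contDiff_id.add contDiff_const)).sub hu).div_const ε

lemma pd_dq {u : XT → ℝ} (hu : ContDiff ℝ ∞ u) (ε : ℝ) (d e : Fin 4) :
    pd e (dq ε d u) = dq ε d (pd e u) := by
  funext p
  have h1 : HasFDerivAt (fun p => u (p + ε • direction d)) (fderiv ℝ u (p + ε • direction d)) p :=
    (hasFDerivAt_comp_add_right _).mpr (diff hu _).hasFDerivAt
  have h2 := ((h1.sub (diff hu p).hasFDerivAt).mul_const ε⁻¹).fderiv
  have e1 : dq ε d u = fun p => (u (p + ε • direction d) - u p) * ε⁻¹ := by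
    funext p; simp [dq, div_eq_mul_inv]
  simp only [pd, dq]
  rw [e1]
  erw [h2]
  simp [div_eq_mul_inv, mul_comm]

lemma md_dq {u : XT → ℝ} (hu : ContDiff ℝ ∞ u) (ε : ℝ) (d : Fin 4) (es : List (Fin 4)) :
    md es (dq ε d u) = dq ε d (md es u) := by
  induction es with
  | nil => rfl
  | cons e es ih => simp only [md]; rw [ih, pd_dq (contDiff_md hu es)]

lemma dq_mvt {u : XT → ℝ} (hu : ContDiff ℝ ∞ u) {ε : ℝ} (hε : 0 < ε) (d : Fin 4) (p : XT) :
    ∃ θ ∈ Ioo 0 ε, dq ε d u p = pd d u (p + θ • direction d) := by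
  have h : ∀ τ : ℝ, HasDerivAt (fun τ : ℝ => u (p + τ • direction d))
      (pd d u (p + τ • direction d)) τ := by
    intro τ
    have h1 : HasDerivAt (fun τ : ℝ => p + τ • direction d) (direction d) τ := by
      simpa using ((hasDerivAt_id τ).smul_const (direction d)).const_add p
    exact (diff hu _).hasFDerivAt.comp_hasDerivAt τ h1
  obtain ⟨θ, hθ, h2⟩ := exists_hasDerivAt_eq_slope (fun τ : ℝ => u (p + τ • direction d)) _ hε
    (fun τ _ => (h τ).continuousAt.continuousWithinAt) (fun τ _ => h τ)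
  refine ⟨θ, hθ, ?_⟩
  rw [h2]
  simp [dq]

lemma norm_shift {p q : XT} {θ r ε : ℝ} (d : Fin 4) (h : ‖q - p‖ ≤ r) (h0 : 0 < θ) (h1 : θ < ε) :
    ‖q + θ • direction d - p‖ ≤ r + ε := by
  have : q + θ • direction d - p = (q - p) + θ • direction d := by abel
  rw [this]
  refine (norm_add_le _ _).trans (add_le_add h ?_)
  rw [norm_smul, Real.norm_eq_abs, abs_of_pos h0]
  nlinarith [norm_direction d]

lemma DD_error {ε : ℝ} (hε : 0 < ε) (ds : List (Fin 4)) {u : XT → ℝ} (hu : ContDiff ℝ ∞ u)
    (p : XT) (C : ℝ)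
    (h : ∀ (es : List (Fin 4)) (q : XT), es.length = ds.length + 1 → ‖q - p‖ ≤ ds.length * ε →
      |md es u q| ≤ C) :
    |DD ε ds u p - md ds u p| ≤ ds.length * ε * C := by
  induction ds generalizing u with
  | nil => simp [DD, md]
  | cons d ds ih =>
    have h1 := ih (contDiff_dq hu ε d) fun es q hes hq => by
      rw [md_dq hu]
      obtain ⟨θ, hθ, h2⟩ := dq_mvt (contDiff_md hu es) hε d q
      rw [h2]
      refine h (d :: es) _ (by simp [hes]) ((norm_shift d hq hθ.1 hθ.2).trans (le_of_eq ?_))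
      simp [add_mul]
    rw [md_dq hu] at h1
    obtain ⟨θ, hθ, h2⟩ := dq_mvt (contDiff_md hu ds) hε d p
    obtain ⟨θ', hθ', h3⟩ := dq_mvt (contDiff_md hu (d :: ds)) hθ.1 d p
    have h4 := h (d :: d :: ds) (p + θ' • direction d) (by simp) (by
      refine (norm_shift (p := p) (q := p) (r := 0) d (by simp) hθ'.1 (hθ'.2.trans hθ.2)).trans ?_
      simp only [List.length_cons]
      push_cast
      nlinarith [Nat.cast_nonneg (α := ℝ) ds.length])
    have h5 : md (d :: ds) u (p + θ • direction d) - md (d :: ds) u p =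
        θ * md (d :: d :: ds) u (p + θ' • direction d) := by
      have : md (d :: d :: ds) u = pd d (md (d :: ds) u) := rfl
      rw [this, ← h3, dq, mul_div_cancel₀ _ hθ.1.ne']
    have h6 : |md (d :: ds) u (p + θ • direction d) - md (d :: ds) u p| ≤ ε * C := by
      rw [h5, abs_mul, abs_of_pos hθ.1]
      exact mul_le_mul hθ.2.le h4 (abs_nonneg _) hε.le
    rw [h2] at h1
    refine (abs_sub_le _ (md (d :: ds) u (p + θ • direction d)) _).trans
      ((add_le_add h1 h6).trans (le_of_eq ?_))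
    simp only [List.length_cons]
    push_cast
    ring

/-- Shifting a rational point. -/
def shift (ε : ℚ) (d : Fin 4) (q : PQ) : PQ :=
  (q.1 + (if d = 0 then ε else 0), fun j => q.2 j + if d = j.succ then ε else 0)

lemma emb_shift (ε : ℚ) (d : Fin 4) (q : PQ) :
    emb (shift ε d q) = emb q + (ε : ℝ) • direction d := by
  refine Prod.ext ?_ (funext fun j => ?_)
  · fin_cases d <;> simp [emb, shift, direction]
  · fin_cases d <;> fin_cases j <;> simp [emb, shift, direction, ratPoint]

lemma computable_fin {α β : Type} [Primcodable α] [Primcodable β] {n : ℕ} {f : α → Fin n → β}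
    (h : ∀ i, Computable fun a => f a i) : Computable f :=
  (Primrec.vector_get'.to_comp.comp (Computable.vector_ofFn h)).of_eq fun a => by
    funext i; simp

lemma computable_shift {α : Type} [Primcodable α] {e : α → ℚ} {d : α → Fin 4} {q : α → PQ}
    (he : Computable e) (hd : Computable d) (hq : Computable q) :
    Computable fun a => shift (e a) (d a) (q a) :=
  (rat_add (Computable.fst.comp hq)
    (comp_ite (pred_eq hd (Computable.const 0)) he (Computable.const 0))).pair
    (computable_fin fun j => rat_add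
      (Computable.fin_app.comp (Computable.snd.comp hq) (Computable.const j))
      (comp_ite (pred_eq hd (Computable.const j.succ)) he (Computable.const 0)))

attribute [irreducible] shift

/-- One difference step on a list of weighted points. -/
def stp (ε : ℚ) (d : Fin 4) (l : List (ℚ × PQ)) : List (ℚ × PQ) :=
  l.foldr (fun b s => (b.1 / ε, shift ε d b.2) :: (-b.1 / ε, b.2) :: s) []

lemma sum_stp (ε : ℚ) (d : Fin 4) (u : XT → ℝ) (l : List (ℚ × PQ)) :
    ((stp ε d l).map fun b => (b.1 : ℝ) * u (emb b.2)).sum =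
      (l.map fun b => (b.1 : ℝ) * dq ε d u (emb b.2)).sum := by
  induction l with
  | nil => simp [stp]
  | cons b l ih =>
    have : stp ε d (b :: l) = (b.1 / ε, shift ε d b.2) :: (-b.1 / ε, b.2) :: stp ε d l := rfl
    rw [this]
    simp only [List.map_cons, List.sum_cons, ih, emb_shift, dq]
    push_cast
    ring

lemma computable_stp {α : Type} [Primcodable α] {e : α → ℚ} {d : α → Fin 4}
    {l : α → List (ℚ × PQ)} (he : Computable e) (hd : Computable d) (hl : Computable l) :
    Computable fun a => stp (e a) (d a) (l a) := by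
  have h1 : Computable fun x : α × (ℚ × PQ) × List (ℚ × PQ) => x.2.1.1 :=
    Computable.fst.comp (Computable.fst.comp Computable.snd)
  have h2 : Computable fun x : α × (ℚ × PQ) × List (ℚ × PQ) => x.2.1.2 :=
    Computable.snd.comp (Computable.fst.comp Computable.snd)
  have h3 : Computable fun x : α × (ℚ × PQ) × List (ℚ × PQ) => e x.1 := he.comp Computable.fst
  have h4 : Computable fun x : α × (ℚ × PQ) × List (ℚ × PQ) => d x.1 := hd.comp Computable.fst
  have h5 : Computable fun x : α × (ℚ × PQ) × List (ℚ × PQ) => x.2.2 :=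
    Computable.snd.comp Computable.snd
  have hh : Computable₂ fun (a : α) (y : (ℚ × PQ) × List (ℚ × PQ)) =>
      (y.1.1 / e a, shift (e a) (d a) y.1.2) :: (-y.1.1 / e a, y.1.2) :: y.2 :=
    (Computable.list_cons.comp ((rat_div h1 h3).pair (computable_shift h3 h4 h2))
      (Computable.list_cons.comp ((rat_div (rat_neg h1) h3).pair h2) h5)).to₂
  exact list_foldr hl (Computable.const []) hh

attribute [irreducible] stp

/-- The weighted points of an iterated difference quotient. -/
def pts (ε : ℚ) (ds : List (Fin 4)) (p : PQ) : List (ℚ × PQ) :=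
  ds.foldr (fun d l => stp ε d l) [(1, p)]

lemma sum_pts (ε : ℚ) (ds : List (Fin 4)) (p : PQ) (u : XT → ℝ) :
    ((pts ε ds p).map fun b => (b.1 : ℝ) * u (emb b.2)).sum = DD ε ds u (emb p) := by
  induction ds generalizing u with
  | nil => simp [pts, DD]
  | cons d ds ih =>
    have : pts ε (d :: ds) p = stp ε d (pts ε ds p) := rfl
    rw [this, sum_stp, ih]
    rfl

lemma computable_pts {α : Type} [Primcodable α] {e : α → ℚ} {ds : α → List (Fin 4)}
    {p : α → PQ} (he : Computable e) (hd : Computable ds) (hp : Computable p) :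
    Computable fun a => pts (e a) (ds a) (p a) := by
  have hh : Computable₂ fun (a : α) (y : Fin 4 × List (ℚ × PQ)) => stp (e a) y.1 y.2 :=
    (computable_stp (he.comp Computable.fst) (Computable.fst.comp Computable.snd)
      (Computable.snd.comp Computable.snd)).to₂
  exact list_foldr hd (Computable.list_cons.comp ((Computable.const 1).pair hp)
    (Computable.const [])) hh

attribute [irreducible] pts

lemma ca_time : CA fun p : PQ => (emb p).1 := CA.of_rat Computable.fst

lemma ca_space (j : Fin 3) : CA fun p : PQ => (emb p).2 j :=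
  CA.of_rat (Computable.fin_app.comp Computable.snd (Computable.const j))

lemma exists_norm_bound : ∃ b : PQ → ℕ, Computable b ∧ ∀ p, ‖emb p‖ ≤ b p := by
  obtain ⟨b, hb, hb'⟩ := ca_time.bound
  choose c hc hc' using fun j => (ca_space j).bound
  refine ⟨fun p => b p + (c 0 p + (c 1 p + c 2 p)),
    nat_add hb (nat_add (hc 0) (nat_add (hc 1) (hc 2))), fun p => ?_⟩
  have h0 := Nat.cast_nonneg (α := ℝ) (b p)
  have h1 := Nat.cast_nonneg (α := ℝ) (c 0 p)
  have h2 := Nat.cast_nonneg (α := ℝ) (c 1 p)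
  have h3 := Nat.cast_nonneg (α := ℝ) (c 2 p)
  push_cast
  rw [Prod.norm_def, max_le_iff, pi_norm_le_iff_of_nonneg (by positivity)]
  refine ⟨(hb' p).trans (by linarith), fun j => (hc' j p).trans ?_⟩
  fin_cases j <;> simp <;> linarith

/-- Effective smooth scalar functions. -/
structure Eff (u : XT → ℝ) : Prop where
  smooth : ContDiff ℝ ∞ u
  ca : CA fun p : PQ => u (emb p)
  bd : ∃ B : ℕ → ℕ, Computable B ∧ Bd u B

theorem Eff.ca_md {u : XT → ℝ} (hu : Eff u) :
    CA fun x : List (Fin 4) × PQ => md x.1 u (emb x.2) := by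
  obtain ⟨B, hB, hB'⟩ := hu.bd
  obtain ⟨b, hb, hb'⟩ := exists_norm_bound
  have h1 : Computable fun x : (List (Fin 4) × PQ) × ℕ => x.1.1 :=
    Computable.fst.comp Computable.fst
  have h2 : Computable fun x : (List (Fin 4) × PQ) × ℕ => x.1.2 :=
    Computable.snd.comp Computable.fst
  have hl := Computable.list_length.comp h1
  have hN : Computable fun x : (List (Fin 4) × PQ) × ℕ =>
      x.1.1.length * B (b x.1.2 + x.1.1.length + 1) * (x.2 + 1) + 1 :=
    Computable.succ.comp (nat_mul (nat_mul hl (hB.comp (Computable.succ.comp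
      (nat_add (hb.comp h2) hl)))) (Computable.succ.comp Computable.snd))
  have hL := computable_pts (rat_inv (rat_natCast hN)) h1 h2
  have hf : CA fun y : ((List (Fin 4) × PQ) × ℕ) × (ℚ × PQ) => (y.2.1 : ℝ) * u (emb y.2.2) :=
    (CA.of_rat (Computable.fst.comp Computable.snd)).mul
      (hu.ca.comp (Computable.snd.comp Computable.snd))
  refine (hf.list_sum hL).lim ?_
  rintro ⟨ds, p⟩ n
  simp only
  rw [sum_pts, abs_sub_comm]
  set C := B (b p + ds.length + 1) with hC
  set N := ds.length * C * (n + 1) + 1 with hNdef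
  have hN0 : (0 : ℝ) < N := by rw [hNdef]; positivity
  have hN1 : (1 : ℝ) ≤ N := by exact_mod_cast Nat.le_add_left 1 _
  have hcast : (((N : ℚ)⁻¹ : ℚ) : ℝ) = (N : ℝ)⁻¹ := by simp
  rw [hcast]
  refine (DD_error (by positivity) ds hu.smooth (emb p) C fun es q hes hq => ?_).trans ?_
  · refine (abs_md_le hu.smooth es q).trans (hB' _ _ _ (by omega) ?_)
    have h3 : ‖q‖ ≤ ‖q - emb p‖ + ‖emb p‖ := by simpa using norm_add_le (q - emb p) (emb p)
    have h4 : (ds.length : ℝ) * (N : ℝ)⁻¹ ≤ ds.length :=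
      mul_le_of_le_one_right (Nat.cast_nonneg _) (inv_le_one_of_one_le₀ hN1)
    have := hb' p
    push_cast
    linarith
  · rw [mul_right_comm, ← div_eq_mul_inv, div_le_div_iff₀ hN0 (by positivity), hNdef]
    push_cast
    linarith

lemma Eff.pd {u : XT → ℝ} (hu : Eff u) (d : Fin 4) : Eff (pd d u) := by
  refine ⟨contDiff_pd hu.smooth d,
    hu.ca_md.comp (g := fun p : PQ => ([d], p)) ((Computable.const _).pair Computable.id), ?_⟩
  obtain ⟨B, hB, hB'⟩ := hu.bd
  refine ⟨fun m => B (m + 1), hB.comp Computable.succ, fun m k p hk hp => ?_⟩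
  exact (norm_iter_pd hu.smooth d k p).trans (hB' _ _ _ (by omega) (by push_cast; linarith))

lemma Eff.congr {u v : XT → ℝ} (hu : Eff u) (h : ∀ p, u p = v p) : Eff v :=
  (funext h : u = v) ▸ hu

lemma Eff.const (q : ℚ) : Eff fun _ => (q : ℝ) := by
  obtain ⟨M, hM⟩ := exists_nat_ge |(q : ℝ)|
  refine ⟨contDiff_const, CA.const q, fun _ => M, Computable.const _, fun m k p _ _ => ?_⟩
  rcases eq_or_ne k 0 with rfl | hk
  · rwa [norm_iteratedFDeriv_zero]
  · simp [iteratedFDeriv_const_of_ne hk]

lemma bd_clm (L : XT →L[ℝ] ℝ) (hL : ‖L‖ ≤ 1) : Bd L fun m => m + 1 := by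
  intro m k p _ hp
  have h0 := Nat.cast_nonneg (α := ℝ) m
  push_cast
  rcases k with _ | k
  · rw [norm_iteratedFDeriv_zero]
    have := L.le_opNorm p
    nlinarith [norm_nonneg p]
  · rw [← norm_iteratedFDeriv_fderiv]
    have : fderiv ℝ L = fun _ => L := funext fun _ => L.fderiv
    rw [this]
    rcases eq_or_ne k 0 with rfl | hk
    · rw [norm_iteratedFDeriv_zero]; linarith
    · simp [iteratedFDeriv_const_of_ne hk]; linarith

lemma Eff.time : Eff fun p => p.1 :=
  ⟨contDiff_fst, ca_time, _, Computable.succ, bd_clm (ContinuousLinearMap.fst ℝ ℝ (Fin 3 → ℝ))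
    (ContinuousLinearMap.norm_fst_le ..)⟩

lemma Eff.space (j : Fin 3) : Eff fun p => p.2 j :=
  ⟨by fun_prop, ca_space j, _, Computable.succ,
    bd_clm ((ContinuousLinearMap.proj j).comp (ContinuousLinearMap.snd ℝ ℝ (Fin 3 → ℝ)))
      (ContinuousLinearMap.opNorm_le_bound _ zero_le_one fun p => by
        simpa using (norm_le_pi_norm p.2 j).trans (norm_snd_le p))⟩

lemma Eff.add {u v : XT → ℝ} (hu : Eff u) (hv : Eff v) : Eff fun p => u p + v p := by
  obtain ⟨B, hB, hB'⟩ := hu.bd
  obtain ⟨C, hC, hC'⟩ := hv.bd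
  refine ⟨hu.smooth.add hv.smooth, hu.ca.add hv.ca, fun m => B m + C m, nat_add hB hC,
    fun m k p hk hp => ?_⟩
  rw [fun_iteratedFDeriv_add_apply (hu.smooth.contDiffAt.of_le (by exact_mod_cast le_top))
    (hv.smooth.contDiffAt.of_le (by exact_mod_cast le_top))]
  push_cast
  exact (norm_add_le _ _).trans (add_le_add (hB' _ _ _ hk hp) (hC' _ _ _ hk hp))

lemma Eff.mul {u v : XT → ℝ} (hu : Eff u) (hv : Eff v) : Eff fun p => u p * v p := by
  obtain ⟨B, hB, hB'⟩ := hu.bd
  obtain ⟨C, hC, hC'⟩ := hv.bd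
  refine ⟨hu.smooth.mul hv.smooth, hu.ca.mul hv.ca, fun m => 2 ^ m * (B m * C m),
    nat_mul (nat_pow (Computable.const 2) Computable.id) (nat_mul hB hC), fun m k p hk hp => ?_⟩
  refine (norm_iteratedFDeriv_mul_le hu.smooth hv.smooth p (by exact_mod_cast le_top)).trans ?_
  calc _ ≤ ∑ i ∈ Finset.range (k + 1), (k.choose i : ℝ) * (B m * C m) := by
        refine Finset.sum_le_sum fun i hi => ?_
        have hi' := Finset.mem_range.mp hi
        rw [mul_assoc]
        gcongr
        · exact hB' _ _ _ (by omega) hp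
        · exact hC' _ _ _ (by omega) hp
    _ = 2 ^ k * (B m * C m) := by
        rw [← Finset.sum_mul, ← Nat.cast_sum, Nat.sum_range_choose]; push_cast; ring
    _ ≤ _ := by
        push_cast
        gcongr
        norm_num

lemma Eff.neg {u : XT → ℝ} (hu : Eff u) : Eff fun p => -u p :=
  ((Eff.const (-1)).mul hu).congr fun p => by simp

lemma Eff.sub {u v : XT → ℝ} (hu : Eff u) (hv : Eff v) : Eff fun p => u p - v p :=
  (hu.add hv.neg).congr fun _ => (sub_eq_add_neg _ _).symm

lemma Eff.sum {ι : Type} (s : Finset ι) {u : ι → XT → ℝ} (hu : ∀ i, Eff (u i)) :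
    Eff fun p => ∑ i ∈ s, u i p := by
  classical
  induction s using Finset.induction_on with
  | empty => exact (Eff.const 0).congr fun p => by simp
  | insert i s hi ih => exact ((hu i).add ih).congr fun p => by rw [Finset.sum_insert hi]

lemma bd_comp {u : XT → ℝ} (hu : Eff u) {g : ℝ → ℝ} {t : Set ℝ} (ht : IsOpen t)
    (hg : ContDiffOn ℝ ∞ g t) (hut : ∀ p, u p ∈ t) {C : ℕ → ℕ} (hC : Computable C)
    (hC' : ∀ m k p, k ≤ m → |iteratedDeriv k g (u p)| ≤ C m) :
    ∃ B : ℕ → ℕ, Computable B ∧ Bd (fun p => g (u p)) B := by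
  obtain ⟨B, hB, hB'⟩ := hu.bd
  refine ⟨fun m => m ! * C m * (B m + 1) ^ m, nat_mul (nat_mul nat_factorial hC)
    (nat_pow (Computable.succ.comp hB) Computable.id), fun m k p hk hp => ?_⟩
  have h1 : (1 : ℝ) ≤ B m + 1 := by linarith [Nat.cast_nonneg (α := ℝ) (B m)]
  refine (norm_iteratedFDeriv_comp_le' (n := k) (range_subset_iff.mpr hut) ht.uniqueDiffOn hg
    hu.smooth (by exact_mod_cast le_top) p (C := C m) (D := B m + 1) (fun i hi => ?_)
    (fun i hi1 hi => ?_)).trans ?_
  · rw [iteratedFDerivWithin_of_isOpen i ht (hut p), norm_iteratedFDeriv_eq_norm_iteratedDeriv]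
    exact hC' _ _ _ (by omega)
  · exact (hB' m i p (by omega) hp).trans
      ((le_add_of_nonneg_right zero_le_one).trans (le_self_pow₀ h1 (by omega)))
  · push_cast
    gcongr

lemma Eff.inv {u : XT → ℝ} (hu : Eff u) {δ : ℝ} (hδ : 0 < δ) (h : ∀ p, δ ≤ u p) :
    Eff fun p => (u p)⁻¹ := by
  have hpos : ∀ p, 0 < u p := fun p => hδ.trans_le (h p)
  refine ⟨hu.smooth.inv fun p => (hpos p).ne', hu.ca.inv hδ fun _ => h _, ?_⟩
  obtain ⟨M, hM⟩ := exists_nat_ge δ⁻¹
  refine bd_comp hu (g := Inv.inv) isOpen_Ioi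
    (fun x hx => (contDiffAt_inv ℝ (ne_of_gt hx)).contDiffWithinAt) hpos
    (C := fun m => m ! * (M + 1) ^ (m + 1))
    (nat_mul nat_factorial (nat_pow (Computable.const _) Computable.succ)) fun m k p hk => ?_
  have h1 : (1 : ℝ) ≤ M + 1 := by linarith [Nat.cast_nonneg (α := ℝ) M]
  have h2 : (u p)⁻¹ ≤ M + 1 := (inv_anti₀ hδ (h p)).trans (by linarith)
  have h3 : u p ^ (-1 - k : ℤ) = (u p)⁻¹ ^ (k + 1) := by
    rw [inv_pow, ← zpow_natCast, ← zpow_neg]; congr 1; push_cast; ring
  have h4 := (hpos p).le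
  rw [iteratedDeriv_eq_iterate, iter_deriv_inv, h3, abs_mul, abs_mul, abs_pow, abs_neg, abs_one,
    one_pow, one_mul, Nat.abs_cast, abs_of_nonneg (by positivity)]
  push_cast
  calc (k ! : ℝ) * (u p)⁻¹ ^ (k + 1) ≤ m ! * (M + 1) ^ (k + 1) := by gcongr
    _ ≤ _ := by gcongr

/-- The functions `x⁻¹ ^ n * exp (-1 / x)`. -/
noncomputable def gn (n : ℕ) (x : ℝ) : ℝ := x⁻¹ ^ n * expNegInvGlue x

lemma contDiff_gn (n : ℕ) : ContDiff ℝ ∞ (gn n) := by
  have := expNegInvGlue.contDiff_polynomial_eval_inv_mul (n := ⊤) (X ^ n)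
  simp only [eval_pow, eval_X] at this
  exact this

lemma deriv_gn (n : ℕ) : deriv (gn n) = fun x => gn (n + 2) x - n * gn (n + 1) x := by
  funext x
  have := (expNegInvGlue.hasDerivAt_polynomial_eval_inv_mul (X ^ n) x).deriv
  simp only [eval_pow, eval_X] at this
  erw [this]
  rcases n with _ | n
  · simp [gn]
  · simp [gn]
    ring

lemma abs_gn_le (n : ℕ) (x : ℝ) : |gn n x| ≤ n ! := by
  unfold gn
  rcases le_or_gt x 0 with hx | hx
  · simp [expNegInvGlue.zero_of_nonpos hx]
  · have h := Real.pow_div_factorial_le_exp x⁻¹ (by positivity) n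
    rw [expNegInvGlue, if_neg (not_le.mpr hx), abs_of_nonneg (by positivity), Real.exp_neg,
      ← div_eq_mul_inv, div_le_iff₀ (Real.exp_pos _), mul_comm]
    rwa [div_le_iff₀ (by positivity)] at h

lemma iter_gn_le (m n : ℕ) (x : ℝ) :
    |iteratedDeriv m (gn n) x| ≤ ((n + 2 * m)! * (n + 2 * m) ^ m : ℕ) := by
  induction m generalizing n with
  | zero => simpa using abs_gn_le n x
  | succ m ih =>
    have hs : ∀ k, ContDiffAt ℝ m (gn k) x := fun k =>
      (contDiff_gn k).contDiffAt.of_le (by exact_mod_cast le_top)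
    rw [iteratedDeriv_succ', deriv_gn, iteratedDeriv_fun_sub (hs _) (contDiffAt_const.mul (hs _)),
      iteratedDeriv_const_mul _ (hs _)]
    refine (abs_sub _ _).trans ?_
    rw [abs_mul, Nat.abs_cast]
    refine (add_le_add (ih _) (mul_le_mul_of_nonneg_left (ih _) (Nat.cast_nonneg _))).trans ?_
    rw [← Nat.cast_mul, ← Nat.cast_add, Nat.cast_le]
    have e : n + 2 * (m + 1) = n + 2 + 2 * m := by ring
    rw [e, pow_succ, ← mul_assoc ((n + 2 + 2 * m)!)]
    have h1 : (n + 1 + 2 * m)! * (n + 1 + 2 * m) ^ m ≤ (n + 2 + 2 * m)! * (n + 2 + 2 * m) ^ m := by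
      gcongr <;> omega
    generalize (n + 2 + 2 * m)! * (n + 2 + 2 * m) ^ m = Y at h1 ⊢
    nlinarith [Nat.mul_le_mul_left n h1, Nat.zero_le (Y * m)]

lemma gn_zero : gn 0 = expNegInvGlue := by funext x; simp [gn]

lemma Eff.glue {u : XT → ℝ} (hu : Eff u) : Eff fun p => expNegInvGlue (u p) := by
  have hb : ∀ m k x, k ≤ m → |iteratedDeriv k expNegInvGlue x| ≤ ((2 * m)! * (2 * m + 1) ^ m : ℕ) := by
    intro m k x hk
    have := iter_gn_le k 0 x
    rw [gn_zero, zero_add] at this
    refine this.trans ?_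
    rw [Nat.cast_le]
    calc (2 * k)! * (2 * k) ^ k ≤ (2 * m)! * (2 * m + 1) ^ k := by gcongr; omega
      _ ≤ _ := by gcongr; omega
  refine ⟨expNegInvGlue.contDiff.comp hu.smooth, ?_, ?_⟩
  · have hq : CA fun q : ℚ => expNegInvGlue q :=
      (CA.ite (rat_le Computable.id (Computable.const 0)) (CA.const 0)
        (CA.exp_rat.comp (rat_neg (rat_inv Computable.id)))).congr fun q => by
        simp [expNegInvGlue]
    refine hu.ca.comp_lip hq 6 0 fun a y _ => ?_
    have hd : Differentiable ℝ expNegInvGlue :=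
      (expNegInvGlue.contDiff (n := 1)).differentiable (by simp)
    refine convex_univ.norm_image_sub_le_of_norm_deriv_le (f := expNegInvGlue)
      (fun x _ => hd x) (fun x _ => ?_) (mem_univ _) (mem_univ _)
    have := hb 1 1 x le_rfl
    rw [iteratedDeriv_one] at this
    exact this
  · exact bd_comp hu isOpen_univ expNegInvGlue.contDiff.contDiffOn (fun _ => mem_univ _)
      (nat_mul (nat_factorial.comp (nat_mul (Computable.const 2) Computable.id))
        (nat_pow (Computable.succ.comp (nat_mul (Computable.const 2) Computable.id))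
          Computable.id)) fun m k p hk => hb m k _ hk

lemma Eff.st {u : XT → ℝ} (hu : Eff u) : Eff fun p => Real.smoothTransition (u p) := by
  have h1 : Eff fun p => expNegInvGlue (1 - u p) :=
    (((Eff.const 1).sub hu).congr fun p => by simp).glue
  refine (hu.glue.mul ((hu.glue.add h1).inv (expNegInvGlue.pos_of_pos (x := 1 / 2) (by norm_num))
    fun p => ?_)).congr fun p => ?_
  · rcases le_total (1 / 2) (u p) with h | h
    · exact (expNegInvGlue.monotone h).trans (le_add_of_nonneg_right (expNegInvGlue.nonneg _))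
    · exact (expNegInvGlue.monotone (by linarith)).trans
        (le_add_of_nonneg_left (expNegInvGlue.nonneg _))
  · rw [Real.smoothTransition, div_eq_mul_inv]

lemma mixedDeriv_eq {u : Fin 3 → XT → ℝ} (hu : ∀ j, ContDiff ℝ ∞ (u j)) (ds : List (Fin 4)) :
    mixedDeriv ds (fun p j => u j p) = fun p j => md ds (u j) p := by
  induction ds with
  | nil => rfl
  | cons d ds ih =>
    funext p j
    simp only [mixedDeriv, md, pd, ih]
    rw [fderiv_pi fun j => diff (contDiff_md (hu j) ds) p]
    rfl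

theorem effective_of_eff {u : Fin 3 → XT → ℝ} (hu : ∀ j, Eff (u j)) {M : ℕ}
    (hM : ∀ j p, (M : ℝ) < ‖p‖ → u j p = 0) : Effective fun p j => u j p := by
  choose F hF hF' using fun j => (hu j).ca_md
  choose B hB hB' using fun j => (hu j).bd
  have hm : Computable fun ds : List (Fin 4) => M + ds.length :=
    nat_add (Computable.const _) Computable.list_length
  refine ⟨fun x j => F j ((x.1, x.2.1), x.2.2),
    fun ds => B 0 (M + ds.length) + (B 1 (M + ds.length) + B 2 (M + ds.length)),
    computable_fin fun j => (hF j).comp ((Computable.fst.pair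
      (Computable.fst.comp Computable.snd)).pair (Computable.snd.comp Computable.snd)),
    nat_add ((hB 0).comp hm) (nat_add ((hB 1).comp hm) ((hB 2).comp hm)), fun ds t q n j => ?_,
    fun ds p j => ?_⟩
  · rw [mixedDeriv_eq fun j => (hu j).smooth]
    exact hF' j (ds, (t, q)) n
  · rw [mixedDeriv_eq fun j => (hu j).smooth]
    refine (abs_md_le (hu j).smooth ds p).trans ?_
    rcases le_or_gt ‖p‖ M with hp | hp
    · refine (hB' j (M + ds.length) _ p (by omega) (hp.trans (by simp))).trans ?_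
      rw [Nat.cast_le]
      fin_cases j <;> simp <;> omega
    · have : u j =ᶠ[nhds p] fun _ => 0 := by
        filter_upwards [(isOpen_lt continuous_const continuous_norm).mem_nhds hp] with q hq
        exact hM j q hq
      rw [(this.iteratedFDeriv ℝ ds.length).eq_of_nhds]
      simp
      positivity

end Crest.Agent.BoxFlow
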