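import Crest.Agent.BoxFlow.Eff

/-! The divergence-free field that carries moving boxes, and the existence of its flow. -/

set_option autoImplicit false

namespace Crest.Agent.BoxFlow

open Crest.AnalysisR.BoxFlow Crest.Agent.CompReal Set Filter Topology
open scoped ContDiff Nat

lemma direction_succ (j : Fin 3) : direction j.succ = (0, Pi.single j 1) := by
  simp [direction]

lemma hasDerivAt_line {u : XT → ℝ} (hu : ContDiff ℝ ∞ u) (d : Fin 4) (p : XT) :
    HasDerivAt (fun τ : ℝ => u (p + τ • direction d)) (pd d u p) 0 := by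
  have h1 : HasDerivAt (fun τ : ℝ => p + τ • direction d) (direction d) 0 := by
    simpa using ((hasDerivAt_id (0 : ℝ)).smul_const (direction d)).const_add p
  have h2 := (diff hu (p + (0 : ℝ) • direction d)).hasFDerivAt.comp_hasDerivAt 0 h1
  simp only [zero_smul, add_zero] at h2
  exact h2

lemma pd_affine {u : XT → ℝ} (hu : ContDiff ℝ ∞ u) {d : Fin 4} {p : XT} {x : ℝ}
    (h : ∀ τ : ℝ, u (p + τ • direction d) = u p + τ * x) : pd d u p = x := by
  refine (hasDerivAt_line hu d p).unique ?_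
  simp_rw [h]
  simpa using ((hasDerivAt_id (0 : ℝ)).mul_const x).const_add (u p)

lemma diff_time {f : ℝ → ℝ} (hf : Eff fun p => f p.1) : Differentiable ℝ f :=
  (diff hf.smooth).comp (f := fun t : ℝ => ((t, 0) : XT)) (by fun_prop)

lemma pd_time {f : ℝ → ℝ} (hf : Eff fun p => f p.1) (p : XT) :
    pd 0 (fun p => f p.1) p = deriv f p.1 := by
  refine (hasDerivAt_line hf.smooth 0 p).unique ?_
  have : HasDerivAt f (deriv f p.1) (p.1 + 0) := by simpa using (diff_time hf p.1).hasDerivAt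
  simpa [direction] using this.comp_const_add p.1 0

lemma Eff.deriv {f : ℝ → ℝ} (hf : Eff fun p => f p.1) : Eff fun p => deriv f p.1 :=
  (hf.pd 0).congr (pd_time hf)

lemma pd_congr {u v : XT → ℝ} {V : Set XT} (hV : IsOpen V) (h : ∀ p ∈ V, u p = v p) (d : Fin 4)
    {p : XT} (hp : p ∈ V) : pd d u p = pd d v p := by
  have : u =ᶠ[𝓝 p] v := by filter_upwards [hV.mem_nhds hp] using h
  simp only [pd, this.fderiv_eq]

lemma pd_zero {u : XT → ℝ} {V : Set XT} (hV : IsOpen V) (h : ∀ p ∈ V, u p = 0) (d : Fin 4)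
    {p : XT} (hp : p ∈ V) : pd d u p = 0 := by
  rw [pd_congr hV (v := fun _ => 0) h d hp]
  simp [pd]

lemma pd_comm {u : XT → ℝ} (hu : ContDiff ℝ ∞ u) (d e : Fin 4) (p : XT) :
    pd d (pd e u) p = pd e (pd d u) p := by
  have h1 : DifferentiableAt ℝ (fderiv ℝ u) p :=
    ((contDiff_infty_iff_fderiv.mp hu).2).differentiable (by simp) p
  have h2 : ∀ d e, pd d (pd e u) p = fderiv ℝ (fderiv ℝ u) p (direction d) (direction e) := by
    intro d e
    have : pd e u = fun q => fderiv ℝ u q (direction e) := rfl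
    rw [pd, this, fderiv_clm_apply h1 (differentiableAt_const _)]
    simp
  rw [h2, h2]
  exact hu.contDiffAt.isSymmSndFDerivAt (by
    simp only [minSmoothness_of_isRCLikeNormedField]
    exact WithTop.coe_le_coe.mpr le_top) _ _

lemma pd_neg (u : XT → ℝ) (d : Fin 4) (p : XT) : pd d (fun p => -u p) p = -pd d u p := by
  simp [pd]

lemma pd_sub {u v : XT → ℝ} (hu : ContDiff ℝ ∞ u) (hv : ContDiff ℝ ∞ v) (d : Fin 4) (p : XT) :
    pd d (fun p => u p - v p) p = pd d u p - pd d v p := by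
  simp [pd, fderiv_fun_sub (diff hu p) (diff hv p)]

/-- A one-dimensional cutoff: `1` for `|z| ≤ w + η` and `0` for `|z| ≥ w + 2 η`. -/
noncomputable def cut (η w z : ℝ) : ℝ :=
  Real.smoothTransition (2 - (z - w) * η⁻¹) * Real.smoothTransition (2 - (-z - w) * η⁻¹)

lemma cut_one {η w z : ℝ} (hη : 0 < η) (h : |z| ≤ w + η) : cut η w z = 1 := by
  obtain ⟨h1, h2⟩ := abs_le.mp h
  have e1 : (z - w) * η⁻¹ ≤ 1 := by rw [← div_eq_mul_inv, div_le_one hη]; linarith
  have e2 : (-z - w) * η⁻¹ ≤ 1 := by rw [← div_eq_mul_inv, div_le_one hη]; linarith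
  rw [cut, Real.smoothTransition.one_of_one_le (by linarith),
    Real.smoothTransition.one_of_one_le (by linarith), one_mul]

lemma cut_zero {η w z : ℝ} (hη : 0 < η) (h : w + 2 * η ≤ |z|) : cut η w z = 0 := by
  rcases le_abs.mp h with h1 | h1
  · have e1 : 2 ≤ (z - w) * η⁻¹ := by rw [← div_eq_mul_inv, le_div_iff₀ hη]; linarith
    rw [cut, Real.smoothTransition.zero_of_nonpos (x := 2 - (z - w) * η⁻¹) (by linarith), zero_mul]
  · have e1 : 2 ≤ (-z - w) * η⁻¹ := by rw [← div_eq_mul_inv, le_div_iff₀ hη]; linarith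
    rw [cut, Real.smoothTransition.zero_of_nonpos (x := 2 - (-z - w) * η⁻¹) (by linarith), mul_zero]

lemma Eff.cut (η : ℚ) {w z : XT → ℝ} (hw : Eff w) (hz : Eff z) :
    Eff fun p => cut η (w p) (z p) :=
  ((((Eff.const 2).sub ((hz.sub hw).mul (Eff.const η⁻¹))).st).mul
    (((Eff.const 2).sub ((hz.neg.sub hw).mul (Eff.const η⁻¹))).st)).congr fun p => by
      simp [BoxFlow.cut]

theorem exists_field {n : ℕ} (c d : Fin n → Fin 3 → ℝ → ℝ) (h : Fin n → Fin 3 → ℚ) (η : ℚ) (M : ℕ)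
    (hc : ∀ i j, Eff fun p => c i j p.1) (hd : ∀ i j, Eff fun p => d i j p.1)
    (hprod : ∀ i t, d i 0 t * d i 1 t * d i 2 t = 1)
    (hc0 : ∀ i j t, t ∉ Icc (1 / 4 : ℝ) (3 / 4) → deriv (c i j) t = 0)
    (hd0 : ∀ i j t, t ∉ Icc (1 / 4 : ℝ) (3 / 4) → deriv (d i j) t = 0)
    (hη : 0 < η) (hM : ∀ i j t, |c i j t| + h i j * d i j t + 2 * η ≤ M) (hM1 : 1 ≤ M)
    (hsep : ∀ i i', i ≠ i' → ∀ t, ∃ j,
      h i j * d i j t + h i' j * d i' j t + 3 * η ≤ |c i j t - c i' j t|) :
    ∃ u : Fin 3 → XT → ℝ, (∀ j, Eff (u j)) ∧ (∀ j p, (M : ℝ) < ‖p‖ → u j p = 0) ∧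
      (∀ j (p : XT), p.1 ∉ Icc (1 / 4 : ℝ) (3 / 4) → u j p = 0) ∧
      (∀ p, ∑ j : Fin 3, pd j.succ (u j) p = 0) ∧
      ∀ i t (x : Fin 3 → ℝ), (∀ j, |d i j t * x j| < h i j * d i j t + η) →
        ∀ j, u j (t, fun j => c i j t + d i j t * x j) =
          deriv (c i j) t + deriv (d i j) t * x j := by
  have hη' : (0 : ℝ) < η := by exact_mod_cast hη
  set z : Fin n → Fin 3 → XT → ℝ := fun i j p => p.2 j - c i j p.1 with hz
  set w : Fin n → Fin 3 → XT → ℝ := fun i j p => h i j * d i j p.1 with hw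
  set χ : Fin n → XT → ℝ := fun i p =>
    cut η (w i 0 p) (z i 0 p) * cut η (w i 1 p) (z i 1 p) * cut η (w i 2 p) (z i 2 p) with hχ
  set l0 : Fin n → XT → ℝ := fun i p => deriv (d i 0) p.1 * (d i 1 p.1 * d i 2 p.1) with hl0
  set l1 : Fin n → XT → ℝ := fun i p => deriv (d i 1) p.1 * (d i 0 p.1 * d i 2 p.1) with hl1
  set A : Fin n → XT → ℝ := fun i p => (deriv (c i 1) p.1 + l1 i p * z i 1 p) * z i 2 p with hA
  set B : Fin n → XT → ℝ := fun i p =>
    deriv (c i 2) p.1 * z i 0 p - (deriv (c i 0) p.1 + l0 i p * z i 0 p) * z i 2 p with hB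
  set P : XT → ℝ := fun p => ∑ i, χ i p * A i p with hP
  set Q : XT → ℝ := fun p => ∑ i, χ i p * B i p with hQ
  have ez : ∀ i j, Eff (z i j) := fun i j => (Eff.space j).sub (hc i j)
  have ew : ∀ i j, Eff (w i j) := fun i j => (Eff.const _).mul (hd i j)
  have eχ : ∀ i, Eff (χ i) := fun i =>
    (((ew i 0).cut η (ez i 0)).mul ((ew i 1).cut η (ez i 1))).mul ((ew i 2).cut η (ez i 2))
  have el0 : ∀ i, Eff (l0 i) := fun i => (hd i 0).deriv.mul ((hd i 1).mul (hd i 2))
  have el1 : ∀ i, Eff (l1 i) := fun i => (hd i 1).deriv.mul ((hd i 0).mul (hd i 2))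
  have eA : ∀ i, Eff (A i) := fun i => ((hc i 1).deriv.add ((el1 i).mul (ez i 1))).mul (ez i 2)
  have eB : ∀ i, Eff (B i) := fun i => ((hc i 2).deriv.mul (ez i 0)).sub
    (((hc i 0).deriv.add ((el0 i).mul (ez i 0))).mul (ez i 2))
  have eP : Eff P := Eff.sum _ fun i => (eχ i).mul (eA i)
  have eQ : Eff Q := Eff.sum _ fun i => (eχ i).mul (eB i)
  have χ0 : ∀ i j p, w i j p + 2 * η ≤ |z i j p| → χ i p = 0 := by
    intro i j p hj
    have := cut_zero hη' hj
    fin_cases j <;> simp only [hχ] <;> simp_all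
  have vanish : ∀ V : Set XT, IsOpen V → (∀ p ∈ V, P p = 0 ∧ Q p = 0) → ∀ j, ∀ p ∈ V,
      (![fun p => -pd 3 Q p, pd 3 P, fun p => pd 1 Q p - pd 2 P p] : Fin 3 → XT → ℝ) j p = 0 := by
    intro V hV hPQ j p hp
    have h1 := fun e => pd_zero hV (fun p hp => (hPQ p hp).1) e hp
    have h2 := fun e => pd_zero hV (fun p hp => (hPQ p hp).2) e hp
    fin_cases j <;> simp [h1, h2]
  have tz : ∀ p : XT, p.1 ∉ Icc (1 / 4 : ℝ) (3 / 4) → P p = 0 ∧ Q p = 0 := by
    intro p hp
    simp [hP, hQ, hA, hB, hl0, hl1, hc0 _ _ _ hp, hd0 _ _ _ hp]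
  refine ⟨![fun p => -pd 3 Q p, pd 3 P, fun p => pd 1 Q p - pd 2 P p], fun j => ?_,
    fun j p hp => ?_, fun j p hp => ?_, fun p => ?_, fun i t x hx j => ?_⟩
  · fin_cases j
    · exact (eQ.pd 3).neg
    · exact eP.pd 3
    · exact (eQ.pd 1).sub (eP.pd 2)
  · refine vanish {p | (M : ℝ) < ‖p‖} (isOpen_lt continuous_const continuous_norm)
      (fun p hp => ?_) j p hp
    have hM1' : (1 : ℝ) ≤ M := by exact_mod_cast hM1
    by_cases ht : p.1 ∈ Icc (1 / 4 : ℝ) (3 / 4)
    · have hp2 : (M : ℝ) < ‖p.2‖ := by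
        have h1 : (M : ℝ) < max ‖p.1‖ ‖p.2‖ := hp
        rcases lt_max_iff.mp h1 with h2 | h2
        · rw [Real.norm_eq_abs, abs_of_pos (by linarith [ht.1])] at h2
          linarith [ht.2]
        · exact h2
      obtain ⟨j, hj⟩ : ∃ j, (M : ℝ) < |p.2 j| := by
        by_contra hcon
        push Not at hcon
        exact hp2.not_ge ((pi_norm_le_iff_of_nonneg (by linarith)).mpr hcon)
      have : ∀ i, χ i p = 0 := fun i => χ0 i j p (by
        have h1 := hM i j p.1
        have h2 := abs_sub_abs_le_abs_sub (p.2 j) (c i j p.1)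
        simp only [hw, hz]
        linarith)
      simp [hP, hQ, this]
    · exact tz p ht
  · exact vanish {p | p.1 ∉ Icc (1 / 4 : ℝ) (3 / 4)}
      (isClosed_Icc.preimage continuous_fst).isOpen_compl tz j p hp
  · rw [Fin.sum_univ_three]
    change pd 1 (fun p => -pd 3 Q p) p + pd 2 (pd 3 P) p +
      pd 3 (fun p => pd 1 Q p - pd 2 P p) p = 0
    rw [pd_neg, pd_sub (eQ.pd 1).smooth (eP.pd 2).smooth, pd_comm eQ.smooth 1 3,
      pd_comm eP.smooth 2 3]
    ring
  · set V : Set XT := {p | ∀ j, |z i j p| < w i j p + η} with hV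
    have hVo : IsOpen V := by
      rw [hV, ofPred_forall]
      exact isOpen_iInter_of_finite fun j => isOpen_lt (ez i j).smooth.continuous.abs
        ((ew i j).smooth.continuous.add continuous_const)
    have hχi : ∀ p ∈ V, χ i p = 1 := fun p hp => by
      simp only [hχ, cut_one hη' (hp _).le, mul_one]
    have hχi' : ∀ p ∈ V, ∀ i', i' ≠ i → χ i' p = 0 := fun p hp i' hi' => by
      obtain ⟨j, hj⟩ := hsep i i' hi'.symm p.1
      refine χ0 i' j p ?_
      have h1 := hp j
      have h2 := abs_sub_le (c i j p.1) (p.2 j) (c i' j p.1)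
      rw [abs_sub_comm (c i j p.1) (p.2 j)] at h2
      simp only [hw, hz] at h1 ⊢
      linarith
    have hPA : ∀ p ∈ V, P p = A i p := fun p hp => by
      simp only [hP]
      rw [Finset.sum_eq_single i (fun i' _ hi' => by rw [hχi' p hp i' hi', zero_mul])
        (by simp), hχi p hp, one_mul]
    have hQB : ∀ p ∈ V, Q p = B i p := fun p hp => by
      simp only [hQ]
      rw [Finset.sum_eq_single i (fun i' _ hi' => by rw [hχi' p hp i' hi', zero_mul])
        (by simp), hχi p hp, one_mul]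
    set p : XT := (t, fun j => c i j t + d i j t * x j) with hp
    have hzp : ∀ j, z i j p = d i j t * x j := fun j => by simp [hz, hp]
    have hpV : p ∈ V := fun j => by rw [hzp]; exact hx j
    have a3 : pd 3 (A i) p = deriv (c i 1) t + l1 i p * z i 1 p :=
      pd_affine (eA i).smooth fun τ => by
        simp [hA, hz, hl1, hp, direction]
        ring
    have a2 : pd 2 (A i) p = l1 i p * z i 2 p :=
      pd_affine (eA i).smooth fun τ => by
        simp [hA, hz, hl1, hp, direction]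
        ring
    have b3 : pd 3 (B i) p = -(deriv (c i 0) t + l0 i p * z i 0 p) :=
      pd_affine (eB i).smooth fun τ => by
        simp [hB, hz, hl0, hp, direction]
        ring
    have b1 : pd 1 (B i) p = deriv (c i 2) t - l0 i p * z i 2 p :=
      pd_affine (eB i).smooth fun τ => by
        simp [hB, hz, hl0, hp, direction]
        ring
    have hpr := hprod i t
    have hder : deriv (d i 0) t * d i 1 t * d i 2 t + d i 0 t * deriv (d i 1) t * d i 2 t +
        d i 0 t * d i 1 t * deriv (d i 2) t = 0 := by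
      have h1 := (((diff_time (hd i 0) t).hasDerivAt.mul (diff_time (hd i 1) t).hasDerivAt).mul
        (diff_time (hd i 2) t).hasDerivAt)
      have h2 : (d i 0 * d i 1 * d i 2) = fun _ => 1 := funext fun t => hprod i t
      rw [h2] at h1
      have := h1.unique (hasDerivAt_const t 1)
      simp only [Pi.mul_apply] at this
      linarith
    fin_cases j
    · change -pd 3 Q p = deriv (c i 0) t + deriv (d i 0) t * x 0
      rw [pd_congr hVo hQB 3 hpV, b3, hzp]
      simp only [hl0, hp]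
      linear_combination (deriv (d i 0) t * x 0) * hpr
    · change pd 3 P p = deriv (c i 1) t + deriv (d i 1) t * x 1
      rw [pd_congr hVo hPA 3 hpV, a3, hzp]
      simp only [hl1, hp]
      linear_combination (deriv (d i 1) t * x 1) * hpr
    · change pd 1 Q p - pd 2 P p = deriv (c i 2) t + deriv (d i 2) t * x 2
      rw [pd_congr hVo hQB 1 hpV, pd_congr hVo hPA 2 hpV, b1, a2, hzp]
      simp only [hl0, hl1, hp]
      linear_combination (deriv (d i 2) t * x 2) * hpr - (d i 2 t * x 2) * hder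

theorem exists_flow {U : Field} (hU : ContDiff ℝ ∞ U) (hc : HasCompactSupport U)
    (h0 : ∀ p : XT, p.1 ∉ Icc (1 / 4 : ℝ) (3 / 4) → U p = 0) :
    ∃ Φ, IsFlow U Φ ∧ ∀ x (γ : ℝ → Fin 3 → ℝ), γ 0 = x → (∀ t, HasDerivAt γ (U (t, γ t)) t) →
      ∀ t, Φ t x = γ t := by
  obtain ⟨K, hK⟩ := hU.lipschitzWith_of_hasCompactSupport hc (by simp)
  obtain ⟨L, hL⟩ := hc.exists_bound_of_continuous hU.continuous
  have hlip : ∀ t : ℝ, LipschitzWith K fun x => U (t, x) := fun t => by
    have := hK.comp (LipschitzWith.prodMk_left t)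
    rw [mul_one] at this
    exact this
  have hL0 : 0 ≤ L := (norm_nonneg _).trans (hL 0)
  have hex : ∀ x, ∃ γ : ℝ → Fin 3 → ℝ, γ 0 = x ∧ ∀ t, HasDerivAt γ (U (t, γ t)) t := by
    intro x
    have hpl : IsPicardLindelof (fun t x => U (t, x)) (tmin := 0) (tmax := 1)
        ⟨0, le_rfl, zero_le_one⟩ x ⟨L, hL0⟩ 0 ⟨L, hL0⟩ K :=
      ⟨fun t _ => (hlip t).lipschitzOnWith,
        fun x _ => (hU.continuous.comp (by fun_prop)).continuousOn,
        fun t _ x _ => hL _, by simp⟩
    obtain ⟨α, hα0, hα⟩ := hpl.exists_eq_forall_mem_Icc_hasDerivWithinAt₀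
    refine ⟨fun t => α (projIcc 0 1 zero_le_one t), by simpa using hα0, fun t => ?_⟩
    by_cases ht : t ∈ Ioo (0 : ℝ) 1
    · have h1 := (hα t (Ioo_subset_Icc_self ht)).hasDerivAt (Icc_mem_nhds ht.1 ht.2)
      simp only [projIcc_of_mem _ (Ioo_subset_Icc_self ht)]
      refine h1.congr_of_eventuallyEq ?_
      filter_upwards [Icc_mem_nhds ht.1 ht.2] with s hs
      rw [projIcc_of_mem _ hs]
    · have ht' : t ∉ Icc (1 / 4 : ℝ) (3 / 4) := fun h => ht ⟨by linarith [h.1], by linarith [h.2]⟩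
      rw [h0 _ ht']
      -- little-o estimate through the projection
      set s : ℝ := (projIcc 0 1 zero_le_one t).1 with hs
      have hs01 : s ∈ Icc (0 : ℝ) 1 := (projIcc 0 1 zero_le_one t).2
      have hs' : s ∉ Icc (1 / 4 : ℝ) (3 / 4) := by
        rw [mem_Ioo, not_and_or, not_lt, not_lt] at ht
        rcases ht with h | h
        · rw [hs, projIcc_of_le_left _ h]; intro h; linarith [h.1]
        · rw [hs, projIcc_of_right_le _ h]; intro h; linarith [h.2]
      have h1 := hα s hs01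
      rw [h0 _ hs', hasDerivWithinAt_iff_isLittleO] at h1
      rw [hasDerivAt_iff_isLittleO]
      simp only [smul_zero, sub_zero] at h1 ⊢
      have hcont : Continuous fun t : ℝ => (projIcc 0 1 zero_le_one t : ℝ) :=
        continuous_subtype_val.comp continuous_projIcc
      have ht2 : Tendsto (fun t : ℝ => (projIcc 0 1 zero_le_one t : ℝ)) (𝓝 t) (𝓝[Icc 0 1] s) :=
        tendsto_nhdsWithin_iff.mpr ⟨hcont.tendsto t,
          Eventually.of_forall fun t => (projIcc 0 1 zero_le_one t).2⟩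
      refine (h1.comp_tendsto ht2).trans_isBigO (Asymptotics.IsBigO.of_bound 1
        (Eventually.of_forall fun r => ?_))
      simpa using abs_projIcc_sub_projIcc zero_le_one (c := r) (d := t)
  choose Φ hΦ0 hΦ using hex
  refine ⟨fun t x => Φ x t, ⟨hΦ0, fun t x => hΦ x t⟩, fun x γ hγ0 hγ t => ?_⟩
  have := ODE_solution_unique_univ (v := fun t x => U (t, x)) (s := fun _ => univ) (K := K)
    (t₀ := 0) (fun t => (hlip t).lipschitzOnWith) (fun t => ⟨hΦ x t, trivial⟩)
    (fun t => ⟨hγ t, trivial⟩) (by rw [hΦ0, hγ0])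
  rw [← this]

end Crest.Agent.BoxFlow
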