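import Crest.Agent.BoxFlow.Field

/-! Moving the boxes without collision. -/

set_option autoImplicit false

namespace Crest.Agent.BoxFlow

open Crest.AnalysisR.BoxFlow Crest.Agent.CompReal Set Filter Topology
open scoped ContDiff Nat

lemma compact_eventually {S : Set ℝ} (hS : IsCompact S) (P : ℕ → ℝ → Prop)
    (hmono : ∀ N N' s, s ∈ S → N ≤ N' → P N s → P N' s)
    (hloc : ∀ s ∈ S, ∃ N, ∀ᶠ s' in 𝓝 s, P N s') : ∀ᶠ N in atTop, ∀ s ∈ S, P N s := by
  have := hS.induction_on (p := fun T => ∀ᶠ N in atTop, ∀ s ∈ T, s ∈ S → P N s) (by simp)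
    (fun T T' h hT => hT.mono fun N hN s hs => hN s (h hs))
    (fun T T' hT hT' => by
      filter_upwards [hT, hT'] with N h1 h2 s hs
      exact hs.elim (h1 s) (h2 s))
    (fun s hs => by
      obtain ⟨N, hN⟩ := hloc s hs
      refine ⟨{s' | P N s'}, mem_nhdsWithin_of_mem_nhds hN, ?_⟩
      filter_upwards [eventually_ge_atTop N] with N' hN' s' h1 h2
      exact hmono N N' s' h2 hN' h1)
  exact this.mono fun N hN s hs => hN s hs hs

lemma sep_of_disjoint {a a' h h' : Fin 3 → ℚ} (hh : ∀ j, 0 < h j) (hh' : ∀ j, 0 < h' j)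
    (hd : Disjoint (box a h) (box a' h')) : ∃ j, (h j : ℝ) + h' j < |(a j : ℝ) - a' j| := by
  by_contra hcon
  push Not at hcon
  have hd' := Set.disjoint_left.mp hd
  refine @hd'
    (fun j => ((h' j : ℝ) * a j + h j * a' j) / (h j + h' j)) (fun j => ?_) (fun j => ?_)
  · have h1 : (0 : ℝ) < h j := by exact_mod_cast hh j
    have h2 : (0 : ℝ) < h' j := by exact_mod_cast hh' j
    have : ((h' j : ℝ) * a j + h j * a' j) / (h j + h' j) - a j =
        -(h j * ((a j - a' j) / (h j + h' j))) := by field_simp; ring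
    rw [this, abs_neg, abs_mul, abs_of_pos h1, abs_div, abs_of_pos (add_pos h1 h2)]
    exact mul_le_of_le_one_right h1.le ((div_le_one (add_pos h1 h2)).mpr (hcon j))
  · have h1 : (0 : ℝ) < h j := by exact_mod_cast hh j
    have h2 : (0 : ℝ) < h' j := by exact_mod_cast hh' j
    have : ((h' j : ℝ) * a j + h j * a' j) / (h j + h' j) - a' j =
        h' j * ((a j - a' j) / (h j + h' j)) := by field_simp; ring
    rw [this, abs_mul, abs_of_pos h2, abs_div, abs_of_pos (add_pos h1 h2)]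
    exact mul_le_of_le_one_right h2.le ((div_le_one (add_pos h1 h2)).mpr (hcon j))

lemma exists_normal (x y : Fin 3 → ℚ) :
    ∃ ψ : Module.Dual ℚ (Fin 3 → ℚ), ψ x = 0 ∧ ψ y = 0 ∧ ∃ z, ψ z ≠ 0 := by
  have h : Submodule.span ℚ (Set.range ![x, y]) < ⊤ := by
    refine lt_top_iff_ne_top.mpr fun h => ?_
    have h1 := finrank_range_le_card (R := ℚ) ![x, y]
    rw [Set.finrank, h] at h1
    simp at h1
  obtain ⟨ψ, hψ, hle⟩ := Submodule.exists_le_ker_of_lt_top _ h
  refine ⟨ψ, hle (Submodule.subset_span ⟨0, rfl⟩), hle (Submodule.subset_span ⟨1, rfl⟩), ?_⟩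
  by_contra hcon
  push Not at hcon
  exact hψ (LinearMap.ext hcon)

lemma exists_generic {n : ℕ} (a b : Fin n → Fin 3 → ℚ) :
    ∃ v : Fin 3 → ℚ, ∀ i i' : Fin n, ∀ α β γ : ℝ, γ ≠ 0 →
      ∃ j, α * ((a i j : ℝ) - a i' j) + β * ((b i j : ℝ) - b i' j) + γ * v j ≠ 0 := by
  choose ψ h1 h2 h3 using fun p : Fin n × Fin n => exists_normal (a p.1 - a p.2) (b p.1 - b p.2)
  obtain ⟨v, hv⟩ := Module.Dual.exists_forall_ne_zero_of_forall_exists ψ h3
  refine ⟨v, fun i i' α β γ hγ => ?_⟩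
  by_contra hcon
  push Not at hcon
  have e : ∀ x : Fin 3 → ℚ, (ψ (i, i') x : ℝ) =
      ∑ j, (x j : ℝ) * ψ (i, i') (fun k => if j = k then 1 else 0) := by
    intro x
    rw [LinearMap.pi_apply_eq_sum_univ]
    simp
  have e1 := e (a i - a i')
  have e2 := e (b i - b i')
  have e3 := e v
  rw [h1 (i, i')] at e1
  rw [h2 (i, i')] at e2
  have : γ * (ψ (i, i') v : ℝ) = 0 := by
    simp only [Fin.sum_univ_three, Pi.sub_apply, Rat.cast_sub, Rat.cast_zero] at e1 e2 e3
    rw [e3]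
    linear_combination α * e1 + β * e2 +
      (ψ (i, i') (fun k => if 0 = k then 1 else 0) : ℝ) * hcon 0 +
      (ψ (i, i') (fun k => if 1 = k then 1 else 0) : ℝ) * hcon 1 +
      (ψ (i, i') (fun k => if 2 = k then 1 else 0) : ℝ) * hcon 2
  rcases mul_eq_zero.mp this with h | h
  · exact hγ h
  · exact hv (i, i') (by exact_mod_cast h)

/-- The time change. -/
noncomputable def σ (t : ℝ) : ℝ := Real.smoothTransition (2 * t - 1 / 2)

lemma σ_mem (t : ℝ) : σ t ∈ Icc (0 : ℝ) 1 :=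
  ⟨Real.smoothTransition.nonneg _, Real.smoothTransition.le_one _⟩

lemma σ_of_le {t : ℝ} (ht : t ≤ 1 / 4) : σ t = 0 :=
  Real.smoothTransition.zero_of_nonpos (by linarith)

lemma σ_of_ge {t : ℝ} (ht : 3 / 4 ≤ t) : σ t = 1 :=
  Real.smoothTransition.one_of_one_le (by linarith)

lemma eff_σ : Eff fun p => σ p.1 :=
  ((((Eff.const 2).mul Eff.time).sub (Eff.const (1 / 2))).st).congr fun p => by simp [σ]

lemma deriv_comp_σ (F : ℝ → ℝ) {t : ℝ} (ht : t ∉ Icc (1 / 4 : ℝ) (3 / 4)) :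
    deriv (fun t => F (σ t)) t = 0 := by
  rw [mem_Icc, not_and_or, not_le, not_le] at ht
  rcases ht with h | h
  · have : (fun t => F (σ t)) =ᶠ[𝓝 t] fun _ => F 0 := by
      filter_upwards [Iio_mem_nhds h] with s hs
      rw [σ_of_le (le_of_lt hs)]
    rw [this.deriv_eq, deriv_const]
  · have : (fun t => F (σ t)) =ᶠ[𝓝 t] fun _ => F 1 := by
      filter_upwards [Ioi_mem_nhds h] with s hs
      rw [σ_of_ge (le_of_lt hs)]
    rw [this.deriv_eq, deriv_const]

/-- The diagonal scaling along the motion. -/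
noncomputable def sc (r : Fin 3 → ℚ) : Fin 3 → ℝ → ℝ :=
  ![fun s => 1 + s * (r 0 - 1), fun s => 1 + s * (r 1 - 1),
    fun s => ((1 + s * (r 0 - 1)) * (1 + s * (r 1 - 1)))⁻¹]

lemma lin_ge {r s : ℝ} (hs : s ∈ Icc (0 : ℝ) 1) : min 1 r ≤ 1 + s * (r - 1) := by
  have h1 := min_le_left 1 r
  have h2 := min_le_right 1 r
  nlinarith [hs.1, hs.2]

lemma lin_pos {r : ℚ} (hr : 0 < r) {s : ℝ} (hs : s ∈ Icc (0 : ℝ) 1) : 0 < 1 + s * (r - 1) :=
  (lt_min one_pos (by exact_mod_cast hr)).trans_le (lin_ge hs)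

lemma sc_pos {r : Fin 3 → ℚ} (hr : ∀ j, 0 < r j) {s : ℝ} (hs : s ∈ Icc (0 : ℝ) 1) (j : Fin 3) :
    0 < sc r j s := by
  fin_cases j
  · exact lin_pos (hr 0) hs
  · exact lin_pos (hr 1) hs
  · exact inv_pos.mpr (mul_pos (lin_pos (hr 0) hs) (lin_pos (hr 1) hs))

lemma sc_prod {r : Fin 3 → ℚ} (hr : ∀ j, 0 < r j) {s : ℝ} (hs : s ∈ Icc (0 : ℝ) 1) :
    sc r 0 s * sc r 1 s * sc r 2 s = 1 :=
  mul_inv_cancel₀ (mul_pos (lin_pos (hr 0) hs) (lin_pos (hr 1) hs)).ne'

lemma sc_zero (r : Fin 3 → ℚ) (j : Fin 3) : sc r j 0 = 1 := by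
  fin_cases j <;> simp [sc]

lemma sc_one {r : Fin 3 → ℚ} (hr : ∏ j, r j = 1) (j : Fin 3) : sc r j 1 = r j := by
  fin_cases j
  · simp [sc]
  · simp [sc]
  · rw [Fin.prod_univ_three] at hr
    have : (r 0 : ℝ) * r 1 * r 2 = 1 := by exact_mod_cast hr
    have h2 := eq_inv_of_mul_eq_one_right this
    simp only [sc]
    simp [h2]

lemma sc_cont {r : Fin 3 → ℚ} (hr : ∀ j, 0 < r j) {s : ℝ} (hs : s ∈ Icc (0 : ℝ) 1) (j : Fin 3) :
    ContinuousAt (sc r j) s := by
  fin_cases j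
  · change ContinuousAt (fun s : ℝ => 1 + s * (r 0 - 1)) s
    fun_prop
  · change ContinuousAt (fun s : ℝ => 1 + s * (r 1 - 1)) s
    fun_prop
  · exact ContinuousAt.inv₀ (f := fun s : ℝ => (1 + s * (r 0 - 1)) * (1 + s * (r 1 - 1)))
      (by fun_prop) (mul_pos (lin_pos (hr 0) hs) (lin_pos (hr 1) hs)).ne'

lemma eff_sc {r : Fin 3 → ℚ} (hr : ∀ j, 0 < r j) (j : Fin 3) : Eff fun p => sc r j (σ p.1) := by
  have e : ∀ j, Eff fun p => 1 + σ p.1 * (r j - 1) := fun j =>
    ((Eff.const 1).add (eff_σ.mul (Eff.const (r j - 1)))).congr fun p => by simp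
  fin_cases j
  · exact e 0
  · exact e 1
  · have h0 : (0 : ℝ) < min 1 (r 0 : ℝ) := lt_min one_pos (by exact_mod_cast hr 0)
    have h1 : (0 : ℝ) < min 1 (r 1 : ℝ) := lt_min one_pos (by exact_mod_cast hr 1)
    exact ((e 0).mul (e 1)).inv (mul_pos h0 h1) fun p =>
      mul_le_mul (lin_ge (σ_mem _)) (lin_ge (σ_mem _)) h1.le (lin_pos (hr 0) (σ_mem _)).le

/-- The path of a centre, before the dilation. -/
noncomputable def mm (a b g : ℚ) (s : ℝ) : ℝ := (1 - s) * a + s * b + s * (1 - s) * g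

/-- The path of a centre. -/
noncomputable def cc (N : ℕ) (a b g : ℚ) (s : ℝ) : ℝ := (1 + N * (s * (1 - s))) * mm a b g s

lemma eff_cc (N : ℕ) (a b g : ℚ) : Eff fun p => cc N a b g (σ p.1) := by
  have e1 : Eff fun p => 1 - σ p.1 := ((Eff.const 1).sub eff_σ).congr fun p => by simp
  exact (((Eff.const 1).add ((Eff.const N).mul (eff_σ.mul e1))).mul
    (((e1.mul (Eff.const a)).add (eff_σ.mul (Eff.const b))).add
      ((eff_σ.mul e1).mul (Eff.const g)))).congr fun p => by simp [cc, mm]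

theorem exists_motion {n : ℕ} (a b h k : Fin n → Fin 3 → ℚ)
    (hh : ∀ i j, 0 < h i j) (hk : ∀ i j, 0 < k i j)
    (ha : Pairwise fun i i' => Disjoint (box (a i) (h i)) (box (a i') (h i')))
    (hb : Pairwise fun i i' => Disjoint (box (b i) (k i)) (box (b i') (k i')))
    (hvol : ∀ i, ∏ j : Fin 3, k i j / h i j = 1) :
    ∃ (g : Fin n → Fin 3 → ℚ) (N M : ℕ), 1 ≤ M ∧
      (∀ i j, ∀ s ∈ Icc (0 : ℝ) 1, |cc N (a i j) (b i j) (g i j) s| +
        h i j * sc (fun j => k i j / h i j) j s + 2 * (1 / ((N : ℝ) + 1)) ≤ M) ∧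
      ∀ i i', i ≠ i' → ∀ s ∈ Icc (0 : ℝ) 1, ∃ j,
        h i j * sc (fun j => k i j / h i j) j s + h i' j * sc (fun j => k i' j / h i' j) j s +
          3 * (1 / ((N : ℝ) + 1)) ≤
        |cc N (a i j) (b i j) (g i j) s - cc N (a i' j) (b i' j) (g i' j) s| := by
  obtain ⟨v, hv⟩ := exists_generic a b
  set g : Fin n → Fin 3 → ℚ := fun i j => (i : ℕ) * v j with hg
  have hr : ∀ i j, 0 < k i j / h i j := fun i j => div_pos (hk i j) (hh i j)
  have hsep : ∀ i i', ∀ᶠ N : ℕ in atTop, i ≠ i' → ∀ s ∈ Icc (0 : ℝ) 1, ∃ j,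
      h i j * sc (fun j => k i j / h i j) j s + h i' j * sc (fun j => k i' j / h i' j) j s +
        3 * (1 / ((N : ℝ) + 1)) <
      (1 + N * (s * (1 - s))) * |mm (a i j) (b i j) (g i j) s - mm (a i' j) (b i' j) (g i' j) s| := by
    intro i i'
    by_cases hii : i = i'
    · simp [hii]
    refine (compact_eventually isCompact_Icc _ ?_ ?_).mono fun N hN _ => hN
    · rintro N N' s hs hNN ⟨j, hj⟩
      refine ⟨j, lt_of_le_of_lt ?_ (hj.trans_le ?_)⟩
      · gcongr
      · have : 0 ≤ s * (1 - s) := mul_nonneg hs.1 (by linarith [hs.2])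
        gcongr
    · intro s hs
      have key : ∃ (N : ℕ) (j : Fin 3),
          h i j * sc (fun j => k i j / h i j) j s + h i' j * sc (fun j => k i' j / h i' j) j s +
            3 * (1 / ((N : ℝ) + 1)) < (1 + N * (s * (1 - s))) *
            |mm (a i j) (b i j) (g i j) s - mm (a i' j) (b i' j) (g i' j) s| := by
        rcases hs.1.eq_or_lt with h0 | h0
        · obtain ⟨j, hj⟩ := sep_of_disjoint (hh i) (hh i') (ha hii)
          obtain ⟨N, hN⟩ := exists_nat_one_div_lt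
            (show 0 < (|(a i j : ℝ) - a i' j| - h i j - h i' j) / 3 by linarith)
          refine ⟨N, j, ?_⟩
          subst h0
          simp only [sc_zero, mm]
          norm_num at hN ⊢
          linarith
        rcases hs.2.eq_or_lt with h1 | h1
        · obtain ⟨j, hj⟩ := sep_of_disjoint (hk i) (hk i') (hb hii)
          obtain ⟨N, hN⟩ := exists_nat_one_div_lt
            (show 0 < (|(b i j : ℝ) - b i' j| - k i j - k i' j) / 3 by linarith)
          refine ⟨N, j, ?_⟩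
          subst h1
          have e : ∀ i, (h i j : ℝ) * ((k i j / h i j : ℚ) : ℝ) = k i j := fun i => by
            have : (h i j : ℝ) ≠ 0 := by exact_mod_cast (hh i j).ne'
            push_cast; field_simp
          simp only [sc_one (hvol _), mm, e]
          norm_num at hN ⊢
          linarith
        · have hs0 : 0 < s * (1 - s) := mul_pos h0 (by linarith)
          have hne : ((i : ℕ) : ℝ) - (i' : ℕ) ≠ 0 := by
            rw [sub_ne_zero, Ne, Nat.cast_inj, Fin.val_inj]; exact hii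
          obtain ⟨j, hj⟩ := hv i i' (1 - s) s (s * (1 - s) * ((i : ℕ) - (i' : ℕ)))
            (mul_ne_zero hs0.ne' hne)
          have hm : 0 < |mm (a i j) (b i j) (g i j) s - mm (a i' j) (b i' j) (g i' j) s| := by
            refine abs_pos.mpr fun h0 => hj ?_
            rw [← h0]
            simp only [mm, hg]
            push_cast
            ring
          obtain ⟨N, hN⟩ := exists_nat_gt ((h i j * sc (fun j => k i j / h i j) j s +
            h i' j * sc (fun j => k i' j / h i' j) j s + 3) / (s * (1 - s) *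
            |mm (a i j) (b i j) (g i j) s - mm (a i' j) (b i' j) (g i' j) s|))
          rw [div_lt_iff₀ (mul_pos hs0 hm)] at hN
          refine ⟨N, j, ?_⟩
          have h3 : 1 / ((N : ℝ) + 1) ≤ 1 := by
            rw [div_le_one (by positivity)]; linarith [Nat.cast_nonneg (α := ℝ) N]
          nlinarith
      obtain ⟨N, j, hj⟩ := key
      refine ⟨N, (ContinuousAt.eventually_lt ?_ ?_ hj).mono fun s' hs' => ⟨j, hs'⟩⟩
      · exact ((continuousAt_const.mul (sc_cont (hr i) hs j)).add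
          (continuousAt_const.mul (sc_cont (hr i') hs j))).add continuousAt_const
      · unfold mm
        fun_prop
  obtain ⟨N, hN⟩ := (eventually_all.mpr fun i => eventually_all.mpr (hsep i)).exists
  have hbd : ∀ i j, ∀ᶠ M : ℕ in atTop, ∀ s ∈ Icc (0 : ℝ) 1, |cc N (a i j) (b i j) (g i j) s| +
      h i j * sc (fun j => k i j / h i j) j s + 2 * (1 / ((N : ℝ) + 1)) < M := by
    intro i j
    refine compact_eventually isCompact_Icc _ (fun M M' s _ hM h1 => h1.trans_le (by gcongr))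
      fun s hs => ?_
    obtain ⟨M, hM⟩ := exists_nat_gt (|cc N (a i j) (b i j) (g i j) s| +
      h i j * sc (fun j => k i j / h i j) j s + 2 * (1 / ((N : ℝ) + 1)))
    refine ⟨M, ContinuousAt.eventually_lt ?_ continuousAt_const hM⟩
    refine (ContinuousAt.add ?_ (continuousAt_const.mul (sc_cont (hr i) hs j))).add
      continuousAt_const
    unfold cc mm
    fun_prop
  obtain ⟨M, hM1, hM⟩ := ((eventually_ge_atTop 1).and
    (eventually_all.mpr fun i => eventually_all.mpr (hbd i))).exists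
  refine ⟨g, N, M, hM1, fun i j s hs => (hM i j s hs).le, fun i i' hii s hs => ?_⟩
  obtain ⟨j, hj⟩ := hN i i' hii s hs
  refine ⟨j, hj.le.trans (le_of_eq ?_)⟩
  have : 0 ≤ s * (1 - s) := mul_nonneg hs.1 (by linarith [hs.2])
  rw [cc, cc, ← mul_sub, abs_mul, abs_of_pos (a := 1 + N * (s * (1 - s))) (by positivity)]

end Crest.Agent.BoxFlow
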